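import Vale.Agent.P324.Core
import Vale.Agent.Lib.PTime.Rat

/-! The dynamic program over describable sets. -/

namespace Vale.Agent.P324

open Vale.Agent.PT

/-- all lists of length at most `k` -/
def tup {α : Type} : ℕ → List α → List (List α)
  | 0, _ => [[]]
  | k + 1, l => [] :: l.flatMap fun a => (tup k l).map (a :: ·)

theorem mem_tup {α : Type} {l : List α} : ∀ {k : ℕ} {w : List α}, w.length ≤ k → (∀ a ∈ w, a ∈ l) →
    w ∈ tup k l
  | 0, [], _, _ => by simp [tup]
  | _ + 1, [], _, _ => by simp [tup]
  | k + 1, a :: w, h1, h2 => by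
    simp only [tup, List.mem_cons, List.mem_flatMap, List.mem_map]
    exact Or.inr ⟨a, h2 a (by simp), w, mem_tup (by simpa using h1) fun b hb => h2 b (by simp [hb]),
      rfl⟩

@[fun_prop] theorem ptime_tup {α β : Type} [TEnc α] [TEnc β] {l : α → List β} (hl : PTime l)
    (k : ℕ) : PTime fun a => tup k (l a) := by
  induction k with
  | zero => exact PTime.const _
  | succ k ih =>
    have : PTime fun p : α × β => tup k (l p.1) := ih.comp (f := Prod.fst) (by fun_prop)
    simp only [tup]
    fun_prop

variable (m : ℕ) (W : List ℕ) (E : List (ℕ × ℕ))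

def key (v : ℕ) : ℕ := (W.countP fun u => decide ((u, v) ∈ E)) * W.length + v

def above (A : List ℕ) (v : ℕ) : Bool := A.any fun a => decide ((a, v) ∈ E)

def below (A : List ℕ) (v : ℕ) : Bool := A.any fun a => decide ((v, a) ∈ E)

def allU : List (List ℕ) := W :: (tup m W).map fun A => W.filter (above E A)

def allLev : List (List ℕ) :=
  (List.range (W.length * W.length + W.length + 1)).flatMap fun θ =>
    (W.filter fun v => decide (key W E v < θ)) ::
      (tup m W).map fun G => W.filter fun v => below E G v && decide (key W E v < θ)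

def test (U B F : List ℕ) (P : List (List ℕ)) (v : ℕ) : Bool :=
  decide (v ∈ F) || (decide (v ∈ U) && (P.any fun Q => decide (v ∈ Q)) && !above E B v)

def fam : List (List ℕ) :=
  (allU m W E).flatMap fun U => (tup m W).flatMap fun B => (tup m W).flatMap fun F =>
    (tup m (allLev m W E)).map fun P => W.filter (test E U B F P)

def free (A B : List ℕ) : Bool := A.all fun u => B.all fun v => !decide ((u, v) ∈ E)

def fits (S : List ℕ) (p : List ℕ × List ℕ) : Bool :=
  decide (p.1.length + p.2.length = S.length) && (S.all fun v => decide (v ∈ p.1 ++ p.2)) &&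
    free E p.2 p.1

def make (tab : List (List ℕ)) (S : List ℕ) : Option (List ℕ) :=
  if (decide (S.length = m) && free E S S) = true then some S
  else ((tab.product tab).find? (fits E S)).map fun p => p.1 ++ p.2

def step (D : List (List ℕ)) (tab : List (List ℕ)) : List (List ℕ) := D.filterMap (make m E tab)

def table (k : ℕ) : List (List ℕ) := (step m E (fam m W E))^[k] []

def dp : Option (List ℕ) := (table m W E W.length).find? fun w => decide (w.length = W.length)

/-- words describing a perfect schedule -/
def Good (w : List ℕ) : Prop :=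
  m ∣ w.length ∧ ∀ u ∈ w, ∀ v ∈ w, (u, v) ∈ E → w.idxOf u / m < w.idxOf v / m

variable {m W E}

theorem free_iff {A B : List ℕ} : free E A B = true ↔ ∀ u ∈ A, ∀ v ∈ B, (u, v) ∉ E := by
  simp [free]

theorem fam_sub {S : List ℕ} (h : S ∈ fam m W E) : S.Sublist W := by
  simp only [fam, List.mem_flatMap, List.mem_map] at h
  obtain ⟨U, -, B, -, F, -, P, -, rfl⟩ := h
  exact List.filter_sublist

theorem fits_perm {S : List ℕ} (hS : S.Nodup) {p : List ℕ × List ℕ} (h : fits E S p = true) :
    S.Perm (p.1 ++ p.2) := by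
  simp only [fits, Bool.and_eq_true, decide_eq_true_eq, List.all_eq_true] at h
  exact (List.subperm_of_subset hS h.1.2).perm_of_length_le (by rw [List.length_append, h.1.1])

theorem make_perm {tab : List (List ℕ)} {S w : List ℕ} (hS : S.Nodup)
    (h : make m E tab S = some w) : S.Perm w := by
  unfold make at h
  split_ifs at h
  · rw [Option.some.inj h]
  · obtain ⟨p, hp, rfl⟩ := Option.map_eq_some_iff.mp h
    exact fits_perm hS (List.find?_some hp)

theorem make_good {tab : List (List ℕ)} (ht : ∀ w ∈ tab, Good m E w) {S w : List ℕ} (hS : S.Nodup)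
    (h : make m E tab S = some w) : Good m E w := by
  have hn := (make_perm hS h).nodup_iff.mp hS
  unfold make at h
  split_ifs at h with c
  · obtain rfl := Option.some.inj h
    rw [Bool.and_eq_true, decide_eq_true_eq, free_iff] at c
    exact ⟨c.1 ▸ dvd_rfl, fun u hu v hv hr => (c.2 u hu v hv hr).elim⟩
  obtain ⟨⟨a, b⟩, hp, rfl⟩ := Option.map_eq_some_iff.mp h
  have h1 := List.find?_some hp
  obtain ⟨h2, h3⟩ := List.pair_mem_product.mp (List.mem_of_find?_eq_some hp)
  simp only [fits, Bool.and_eq_true, free_iff] at h1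
  obtain ⟨⟨k, hk⟩, ga⟩ := ht a h2
  obtain ⟨db, gb⟩ := ht b h3
  have dj := List.disjoint_of_nodup_append hn
  refine ⟨by rw [List.length_append]; exact dvd_add ⟨k, hk⟩ db, fun u hu v hv hr => ?_⟩
  simp only at hu hv ⊢
  rcases List.mem_append.mp hu with hu | hu <;> rcases List.mem_append.mp hv with hv | hv
  · rw [List.idxOf_append_of_mem hu, List.idxOf_append_of_mem hv]; exact ga u hu v hv hr
  · rw [List.idxOf_append_of_mem hu, List.idxOf_append_of_notMem fun e => dj e hv]
    have := List.idxOf_lt_length_of_mem hu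
    rw [hk] at this ⊢
    have hm : 0 < m := Nat.pos_of_mul_pos_right ((Nat.zero_le _).trans_lt this)
    rw [Nat.mul_add_div hm]
    exact (Nat.div_lt_of_lt_mul this).trans_le (Nat.le_add_right _ _)
  · exact (h1.2 u hu v hv hr).elim
  · rw [List.idxOf_append_of_notMem fun e => dj e hu, List.idxOf_append_of_notMem fun e => dj e hv,
      hk]
    have := gb u hu v hv hr
    have hm : 0 < m := Nat.pos_of_ne_zero fun e => by simp [e] at this
    rw [Nat.mul_add_div hm, Nat.mul_add_div hm]
    omega

theorem table_succ (k : ℕ) :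
    table m W E (k + 1) = (fam m W E).filterMap (make m E (table m W E k)) :=
  Function.iterate_succ_apply' _ _ _

theorem table_good (hW : W.Nodup) (k : ℕ) :
    ∀ w ∈ table m W E k, Good m E w ∧ w.Subperm W := by
  induction k with
  | zero => simp [table]
  | succ k ih =>
    intro w hw
    rw [table_succ, List.mem_filterMap] at hw
    obtain ⟨S, h1, h2⟩ := hw
    have hS := hW.sublist (fam_sub h1)
    exact ⟨make_good (fun w hw => (ih w hw).1) hS h2, S, make_perm hS h2, fam_sub h1⟩

theorem dp_sound (hW : W.Nodup) {w : List ℕ} (h : dp m W E = some w) : Good m E w ∧ w.Perm W := by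
  have h1 := List.find?_some h
  obtain ⟨h2, h3⟩ := table_good hW _ w (List.mem_of_find?_eq_some h)
  exact ⟨h2, h3.perm_of_length_le (by simpa using (of_decide_eq_true h1).ge)⟩

theorem sz_perm {α : Type} [TEnc α] {l l' : List α} (h : l.Perm l') : sz l = sz l' := by
  rw [sz_list, sz_list, (h.map _).sum_eq]

theorem sz_table (hW : W.Nodup) (k : ℕ) :
    sz (table m W E k) ≤ (fam m W E).length * (sz W + 1) + 1 := by
  refine (sz_list_le _ (B := sz W) fun w hw => ?_).trans ?_
  · obtain ⟨S, h1, h2⟩ := (table_good hW k w hw).2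
    exact sz_perm h1 ▸ sz_sublist h2
  · gcongr
    cases k with
    | zero => simp [table]
    | succ k => rw [table_succ]; exact List.length_filterMap_le _ _

section complete

variable {N : ℕ} {O : Ord} (hW : O.W = Finset.range N) (hr : ∀ a b, O.r a b ↔ (a, b) ∈ E)
  (hx : O.ix = key (List.range N) E) (hΘ : O.Θ = N * N + N)

include hW in
theorem Small.tup {A : Finset ℕ} (h : Small O m A) : A.toList ∈ tup m (List.range N) :=
  mem_tup (by simpa using h.2) fun a ha => by simpa [hW] using h.1 (Finset.mem_toList.mp ha)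

include hW hr hx hΘ in
theorem Desc.mem {S : Finset ℕ} (h : Desc O m S) :
    (List.range N).filter (fun v => decide (v ∈ S)) ∈ fam m (List.range N) E := by
  obtain ⟨U, B, F, P, hU, hB, hF, hP, hS⟩ := h
  obtain ⟨U', u1, u2⟩ : ∃ U' ∈ allU m (List.range N) E, ∀ v < N, v ∈ U' ↔ v ∈ U := by
    rcases hU with rfl | ⟨A, hA, rfl⟩
    · exact ⟨_, List.mem_cons_self, fun v _ => by simp [hW]⟩
    · exact ⟨_, List.mem_cons_of_mem _ (List.mem_map_of_mem (hA.tup hW)), fun v _ => by
        simp [hW, hr, above]⟩
  have : ∀ i, ∃ Q ∈ allLev m (List.range N) E, ∀ v < N, v ∈ Q ↔ v ∈ P i := fun i => by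
    obtain ⟨θ, hθ, h⟩ := hP i
    have : θ ∈ List.range ((List.range N).length * (List.range N).length +
      (List.range N).length + 1) := by simp only [List.mem_range, List.length_range]; omega
    rcases h with h | ⟨G, hG, h⟩
    · exact ⟨_, List.mem_flatMap_of_mem this List.mem_cons_self, fun v hv => by simp [h, hx, hv]⟩
    · exact ⟨_, List.mem_flatMap_of_mem this (List.mem_cons_of_mem _
        (List.mem_map_of_mem (hG.tup hW))), fun v hv => by simp [h, hx, hv, hr, below]⟩
  choose Q q1 q2 using this
  simp only [fam, List.mem_flatMap, List.mem_map]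
  refine ⟨U', u1, _, hB.tup hW, _, hF.tup hW, List.ofFn Q, mem_tup (by simp) (by simpa using q1),
    List.filter_congr fun v hv => ?_⟩
  rw [List.mem_range] at hv
  rw [Bool.eq_iff_iff]
  simp [test, above, hS, u2 v hv, q2 _ v hv, hr, and_assoc]

theorem Desc.sub {S : Finset ℕ} (h : Desc O m S) : S ⊆ O.W := by
  obtain ⟨U, B, F, P, hU, -, hF, -, hS⟩ := h
  intro v hv
  rcases (hS v).mp hv with h | ⟨h, -⟩
  · exact hF.1 h
  · rcases hU with rfl | ⟨A, -, rfl⟩
    · exact h
    · exact h.1

theorem Der.desc {S : Finset ℕ} (h : Der O m S) : Desc O m S := by cases h <;> assumption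

theorem Der.pos (hm : 0 < m) {S : Finset ℕ} (h : Der O m S) : 0 < S.card := by
  induction h with
  | slot _ h _ => exact h ▸ hm
  | cat _ _ _ e _ _ ih _ => exact ih.trans_le (Finset.card_le_card (e ▸ Finset.subset_union_left))

include hW hr hx hΘ in
theorem Der.table (hm : 0 < m) {S : Finset ℕ} (h : Der O m S) : ∀ k, S.card ≤ k →
    ∃ w ∈ table m (List.range N) E k, w.length = S.card ∧ ∀ v, v ∈ w ↔ v ∈ S := by
  have cn : ∀ S : Finset ℕ, ((List.range N).filter fun v => decide (v ∈ S)).Nodup := fun S =>
    List.nodup_range.filter _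
  have cm : ∀ {S : Finset ℕ}, Desc O m S →
      ∀ v, v ∈ ((List.range N).filter fun v => decide (v ∈ S)) ↔ v ∈ S := fun h v => by
    simpa using fun hv => by simpa [hW] using h.sub hv
  have cl : ∀ {S : Finset ℕ}, Desc O m S →
      ((List.range N).filter fun v => decide (v ∈ S)).length = S.card := fun h => by
    rw [← List.toFinset_card_of_nodup (cn _)]
    exact congrArg _ (Finset.ext fun v => by rw [List.mem_toFinset, cm h])
  have fin : ∀ {S : Finset ℕ} {k : ℕ}, Desc O m S → (make m E (P324.table m (List.range N) E k)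
      ((List.range N).filter fun v => decide (v ∈ S))).isSome = true →
      ∃ w ∈ P324.table m (List.range N) E (k + 1), w.length = S.card ∧ ∀ v, v ∈ w ↔ v ∈ S :=
    fun h h' => by
    obtain ⟨w, hw⟩ := Option.isSome_iff_exists.mp h'
    have p := make_perm (cn _) hw
    exact ⟨w, table_succ _ ▸ List.mem_filterMap.mpr ⟨_, h.mem hW hr hx hΘ, hw⟩,
      p.length_eq ▸ cl h, fun v => p.mem_iff.symm.trans (cm h v)⟩
  induction h with
  | slot hD h1 h2 =>
    intro k hk
    obtain ⟨k, rfl⟩ := Nat.exists_eq_add_one_of_ne_zero (n := k) (by omega)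
    refine fin hD ?_
    rw [make, if_pos, Option.isSome_some]
    rw [Bool.and_eq_true, decide_eq_true_eq, free_iff, cl hD]
    exact ⟨h1, fun u hu v hv e => h2 u ((cm hD u).mp hu) v ((cm hD v).mp hv) ((hr u v).mpr e)⟩
  | @cat S L R hD hL hR e dj h2 ihL ihR =>
    intro k hk
    have := hL.pos hm
    have := hR.pos hm
    have c : S.card = L.card + R.card := e ▸ Finset.card_union_of_disjoint dj
    obtain ⟨k, rfl⟩ := Nat.exists_eq_add_one_of_ne_zero (n := k) (by omega)
    obtain ⟨a, a1, a2, a3⟩ := ihL k (by omega)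
    obtain ⟨b, b1, b2, b3⟩ := ihR k (by omega)
    refine fin hD ?_
    unfold make
    split_ifs
    · rfl
    rw [Option.isSome_map, List.find?_isSome]
    refine ⟨(a, b), List.pair_mem_product.mpr ⟨a1, b1⟩, ?_⟩
    simp only [fits, Bool.and_eq_true, decide_eq_true_eq, free_iff, List.all_eq_true, cl hD, cm hD,
      List.mem_append, a3, b3, ← hr]
    exact ⟨⟨by omega, fun v hv => Finset.mem_union.mp (e ▸ hv)⟩, h2⟩

end complete

/-- The order given by a transitive and irreflexive list of pairs. -/
def ord (N : ℕ) (E : List (ℕ × ℕ)) (tr : ∀ {a b c}, (a, b) ∈ E → (b, c) ∈ E → (a, c) ∈ E)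
    (ir : ∀ a, (a, a) ∉ E) (mem : ∀ {a b}, (a, b) ∈ E → a < N) : Ord where
  W := Finset.range N
  r a b := (a, b) ∈ E
  ix := key (List.range N) E
  Θ := N * N + N
  tr := tr
  mem h := Finset.mem_range.mpr (mem h)
  lt {a b} h := by
    have : ((List.range N).countP fun u => decide ((u, a) ∈ E)) <
        (List.range N).countP fun u => decide ((u, b) ∈ E) := by
      rw [List.countP_eq_length_filter, List.countP_eq_length_filter]
      have s : ((List.range N).filter fun u => decide ((u, a) ∈ E)).Sublist
          ((List.range N).filter fun u => decide ((u, b) ∈ E)) :=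
        List.monotone_filter_right _ fun u hu => decide_eq_true (tr (of_decide_eq_true hu) h)
      refine lt_of_le_of_ne s.length_le fun e => ?_
      have : a ∈ (List.range N).filter fun u => decide ((u, a) ∈ E) := by
        rw [s.eq_of_length e]; simpa using ⟨mem h, h⟩
      exact ir a (by simpa using (List.mem_filter.mp this).2)
    have h1 := Nat.mul_le_mul_right N (Nat.succ_le_of_lt this)
    have := mem h
    simp only [key, List.length_range]
    rw [Nat.succ_mul] at h1
    omega
  inj a ha b hb e := by
    have := congrArg (· % N) e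
    simpa [key, Nat.mod_eq_of_lt (Finset.mem_range.mp ha),
      Nat.mod_eq_of_lt (Finset.mem_range.mp hb)] using this
  bd a ha := by
    have h1 := List.countP_le_length (l := List.range N) (p := fun u => decide ((u, a) ∈ E))
    have := Finset.mem_range.mp ha
    simp only [key, List.length_range] at h1 ⊢
    have := Nat.mul_le_mul_right N h1
    omega

theorem dp_complete {N T : ℕ} (tr : ∀ {a b c}, (a, b) ∈ E → (b, c) ∈ E → (a, c) ∈ E)
    (mem : ∀ {a b}, (a, b) ∈ E → a < N) (hm : 0 < m) (hT : 0 < T) {σ : ℕ → ℕ}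
    (h1 : ∀ v < N, 0 < σ v ∧ σ v ≤ T)
    (h2 : ∀ i, 0 < i → i ≤ T → ((Finset.range N).filter fun v => σ v = i).card = m)
    (h3 : ∀ u v, (u, v) ∈ E → σ u < σ v) : (dp m (List.range N) E).isSome = true := by
  have := der_of_sch (O := ord N E tr (fun a h => lt_irrefl _ (h3 a a h)) mem) (σ := σ) hm hT
    ⟨fun v hv => h1 v (Finset.mem_range.mp hv), h2, fun u _ v _ => h3 u v, by simp⟩
  obtain ⟨w, w1, w2, -⟩ := this.table rfl (fun _ _ => Iff.rfl) rfl rfl hm N (by simp [ord])
  rw [dp, List.find?_isSome]
  exact ⟨w, by simpa using w1, by simpa [ord] using w2⟩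

section poly

variable {α : Type} [TEnc α] {W A B F S : α → List ℕ} {E : α → List (ℕ × ℕ)} {v : α → ℕ}
  {P : α → List (List ℕ)}

@[fun_prop] theorem ptime_key (hW : PTime W) (hE : PTime E) (hv : PTime v) :
    PTime fun a => key (W a) (E a) (v a) := by unfold key; fun_prop

@[fun_prop] theorem ptime_above (hE : PTime E) (hA : PTime A) (hv : PTime v) :
    PTime fun a => above (E a) (A a) (v a) := by unfold above; fun_prop

@[fun_prop] theorem ptime_below (hE : PTime E) (hA : PTime A) (hv : PTime v) :
    PTime fun a => below (E a) (A a) (v a) := by unfold below; fun_prop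

@[fun_prop] theorem ptime_allU (m : ℕ) (hW : PTime W) (hE : PTime E) :
    PTime fun a => allU m (W a) (E a) := by unfold allU; fun_prop

@[fun_prop] theorem ptime_allLev (m : ℕ) (hW : PTime W) (hE : PTime E) :
    PTime fun a => allLev m (W a) (E a) := by unfold allLev; fun_prop

@[fun_prop] theorem ptime_test (hE : PTime E) (hA : PTime A) (hB : PTime B) (hF : PTime F)
    (hP : PTime P) (hv : PTime v) : PTime fun a => test (E a) (A a) (B a) (F a) (P a) (v a) := by
  unfold test; fun_prop

@[fun_prop] theorem ptime_fam (m : ℕ) (hW : PTime W) (hE : PTime E) :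
    PTime fun a => fam m (W a) (E a) := by unfold fam; fun_prop

@[fun_prop] theorem ptime_free (hE : PTime E) (hA : PTime A) (hB : PTime B) :
    PTime fun a => free (E a) (A a) (B a) := by unfold free; fun_prop

@[fun_prop] theorem ptime_fits {p : α → List ℕ × List ℕ} (hE : PTime E) (hS : PTime S)
    (hp : PTime p) : PTime fun a => fits (E a) (S a) (p a) := by unfold fits; fun_prop

@[fun_prop] theorem ptime_make (m : ℕ) (hE : PTime E) (hP : PTime P) (hS : PTime S) :
    PTime fun a => make m (E a) (P a) (S a) := by unfold make; fun_prop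

theorem ptime_dp (m : ℕ) (hW : PTime W) (hE : PTime E) (hn : ∀ a, (W a).Nodup) :
    PTime fun a => dp m (W a) (E a) := by
  have h : PTime fun a => table m (W a) (E a) (W a).length :=
    PTime.iterate_len (f := fun a => step m (E a) (fam m (W a) (E a))) hW (.const [])
      (by unfold step; fun_prop) (fun a => (fam m (W a) (E a)).length * (sz (W a) + 1) + 1)
      ((PB.mul (by fun_prop) (hW.sz_PB.add (.const 1))).add (.const 1))
      fun a k _ => sz_table (hn a) k
  unfold dp
  fun_prop

end poly

end Vale.Agent.P324
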