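import Mathlib

/-! The structure theorem: a perfect schedule can be cut recursively into describable sets. -/

namespace Vale.Agent.P324

open Finset

/-- An ordered set of jobs with a compatible numbering. -/
structure Ord where
  W : Finset ℕ
  r : ℕ → ℕ → Prop
  ix : ℕ → ℕ
  Θ : ℕ
  tr : ∀ {a b c}, r a b → r b c → r a c
  mem : ∀ {a b}, r a b → a ∈ W
  lt : ∀ {a b}, r a b → ix a < ix b
  inj : ∀ a ∈ W, ∀ b ∈ W, ix a = ix b → a = b
  bd : ∀ a ∈ W, ix a < Θ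

variable (O : Ord) (m : ℕ)

/-- A perfect schedule of `S` in the slots `s + 1, ..., t` with `F` in the last slot. -/
structure Sch (S F : Finset ℕ) (s t : ℕ) (σ : ℕ → ℕ) : Prop where
  rng : ∀ v ∈ S, s < σ v ∧ σ v ≤ t
  full : ∀ i, s < i → i ≤ t → (S.filter fun v => σ v = i).card = m
  prec : ∀ u ∈ S, ∀ v ∈ S, O.r u v → σ u < σ v
  last : ∀ f ∈ F, f ∈ S ∧ σ f = t

def Small (A : Finset ℕ) : Prop := A ⊆ O.W ∧ A.card ≤ m

def IsU (U : Set ℕ) : Prop := U = O.W ∨ ∃ A, Small O m A ∧ U = {v | v ∈ O.W ∧ ∃ a ∈ A, O.r a v}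

def IsLev (P : Set ℕ) : Prop := ∃ θ ≤ O.Θ, P = {v | O.ix v < θ} ∨
  ∃ G, Small O m G ∧ P = {v | (∃ g ∈ G, O.r v g) ∧ O.ix v < θ}

/-- Describable sets. -/
def Desc (S : Finset ℕ) : Prop := ∃ (U : Set ℕ) (B F : Finset ℕ) (P : Fin m → Set ℕ),
  IsU O m U ∧ Small O m B ∧ Small O m F ∧ (∀ i, IsLev O m (P i)) ∧
    ∀ v, v ∈ S ↔ v ∈ F ∨ (v ∈ U ∧ (∃ i, v ∈ P i) ∧ ¬∃ b ∈ B, O.r b v)

/-- Derivations. -/
inductive Der : Finset ℕ → Prop
  | slot {S} : Desc O m S → S.card = m → (∀ u ∈ S, ∀ v ∈ S, ¬O.r u v) → Der S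
  | cat {S L R} : Desc O m S → Der L → Der R → S = L ∪ R → Disjoint L R →
      (∀ u ∈ R, ∀ v ∈ L, ¬O.r u v) → Der S

structure Inv (S F : Finset ℕ) (s t : ℕ) (U : Set ℕ) (P : Fin m → Set ℕ) (As : Finset (Fin m)) :
    Prop where
  st : s < t
  sub : S ⊆ O.W
  hU : IsU O m U
  hP : ∀ i, IsLev O m (P i)
  feas : ∃ σ, Sch O m S F s t σ
  cov : ∀ v ∈ S, v ∉ F → v ∈ U ∧ ∃ i, v ∈ P i
  FP : ∀ f ∈ F, ∀ i, f ∉ P i
  exc : ∀ σ, Sch O m S F s t σ → ∀ v ∈ U, (∃ i, v ∈ P i) → v ∉ S →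
    ∃ b ∈ S, b ∉ F ∧ σ b = t ∧ O.r b v
  down : ∀ y ∈ S, ∀ z ∈ U, O.r z y → z ∈ S
  asg : ∀ f ∈ F, ∀ v, O.r v f → ∃ i ∈ As, v ∈ P i
  card : As.card ≤ F.card

variable {O m} {S F : Finset ℕ} {s t : ℕ} {σ : ℕ → ℕ} {U : Set ℕ} {P : Fin m → Set ℕ}
  {As : Finset (Fin m)}

theorem IsLev.down {P : Set ℕ} (h : IsLev O m P) {a b : ℕ} (hab : O.r a b) (hb : b ∈ P) :
    a ∈ P := by
  obtain ⟨θ, -, rfl | ⟨G, -, rfl⟩⟩ := h
  · exact (O.lt hab).trans hb
  · obtain ⟨⟨g, hg, h1⟩, h2⟩ := hb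
    exact ⟨⟨g, hg, O.tr hab h1⟩, (O.lt hab).trans h2⟩

theorem IsLev.empty : IsLev O m ∅ := ⟨0, Nat.zero_le _, Or.inl (by simp)⟩

theorem IsLev.trunc {P : Set ℕ} (h : IsLev O m P) (x : ℕ) :
    IsLev O m (P ∩ {v | O.ix v < O.ix x}) := by
  obtain ⟨θ, hθ, rfl | ⟨G, hG, rfl⟩⟩ := h
  · exact ⟨min θ (O.ix x), (min_le_left _ _).trans hθ, Or.inl (by ext; simp)⟩
  · exact ⟨min θ (O.ix x), (min_le_left _ _).trans hθ, Or.inr ⟨G, hG, by ext; simp [and_assoc]⟩⟩

theorem IsU.up (h : IsU O m U) {a b : ℕ} (hab : O.r a b) (ha : a ∈ U) (hb : b ∈ O.W) : b ∈ U := by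
  rcases h with rfl | ⟨A, -, rfl⟩
  · exact hb
  · obtain ⟨-, c, hc, h1⟩ := ha
    exact ⟨hb, c, hc, O.tr h1 hab⟩

theorem Sch.card_le (h : Sch O m S F s t σ) {A : Finset ℕ} {i : ℕ} (h1 : s < i) (h2 : i ≤ t)
    (hA : ∀ a ∈ A, a ∈ S ∧ σ a = i) : A.card ≤ m :=
  h.full i h1 h2 ▸ card_le_card fun a ha => mem_filter.mpr (hA a ha)

theorem Sch.left (h : Sch O m S F s t σ) {u : ℕ} (hu : u ≤ t) {F' : Finset ℕ}
    (hF : ∀ f ∈ F', f ∈ S ∧ σ f = u) : Sch O m (S.filter fun v => σ v ≤ u) F' s u σ where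
  rng := fun v hv => ⟨(h.rng v (mem_filter.mp hv).1).1, (mem_filter.mp hv).2⟩
  full := fun i h1 h2 => by
    rw [← h.full i h1 (h2.trans hu), filter_filter]
    exact congrArg _ (filter_congr fun v _ => by omega)
  prec := fun a ha b hb => h.prec a (mem_filter.mp ha).1 b (mem_filter.mp hb).1
  last := fun f hf => ⟨mem_filter.mpr ⟨(hF f hf).1, (hF f hf).2.le⟩, (hF f hf).2⟩

theorem Sch.right (h : Sch O m S F s t σ) {u : ℕ} (hs : s ≤ u) (hu : u < t) :
    Sch O m (S.filter fun v => u < σ v) F u t σ where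
  rng := fun v hv => ⟨(mem_filter.mp hv).2, (h.rng v (mem_filter.mp hv).1).2⟩
  full := fun i h1 h2 => by
    rw [← h.full i (hs.trans_lt h1) h2, filter_filter]
    exact congrArg _ (filter_congr fun v _ => by omega)
  prec := fun a ha b hb => h.prec a (mem_filter.mp ha).1 b (mem_filter.mp hb).1
  last := fun f hf => ⟨mem_filter.mpr ⟨(h.last f hf).1, (h.last f hf).2 ▸ hu⟩, (h.last f hf).2⟩

theorem Sch.glue (h : Sch O m S F s t σ) {u : ℕ} (hu : u ≤ t) {F' : Finset ℕ} {σ₁ σ₂ : ℕ → ℕ}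
    (hs : s ≤ u) (h1 : Sch O m (S.filter fun v => σ v ≤ u) F' s u σ₁)
    (h2 : Sch O m (S.filter fun v => u < σ v) F u t σ₂) :
    Sch O m S F s t fun v => if σ v ≤ u then σ₁ v else σ₂ v := by
  have a1 : ∀ v ∈ S, σ v ≤ u → s < σ₁ v ∧ σ₁ v ≤ u := fun v hv c =>
    h1.rng v (mem_filter.mpr ⟨hv, c⟩)
  have a2 : ∀ v ∈ S, ¬σ v ≤ u → u < σ₂ v ∧ σ₂ v ≤ t := fun v hv c =>
    h2.rng v (mem_filter.mpr ⟨hv, not_le.mp c⟩)
  refine ⟨fun v hv => ?_, fun i b1 b2 => ?_, fun a ha b hb hab => ?_, fun f hf => ?_⟩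
  · split_ifs with c
    · have := a1 v hv c; omega
    · have := a2 v hv c; omega
  · by_cases c : i ≤ u
    · rw [← h1.full i b1 c, filter_filter]
      refine congrArg _ (filter_congr fun v hv => ?_)
      split_ifs with d
      · simp [d]
      · have := a2 v hv d; omega
    · rw [← h2.full i (not_le.mp c) b2, filter_filter]
      refine congrArg _ (filter_congr fun v hv => ?_)
      split_ifs with d
      · have := a1 v hv d; omega
      · simp [not_le.mp d]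
  · have := h.prec a ha b hb hab
    split_ifs with c d d
    · exact h1.prec a (mem_filter.mpr ⟨ha, c⟩) b (mem_filter.mpr ⟨hb, d⟩) hab
    · have := a1 a ha c; have := a2 b hb d; omega
    · omega
    · exact h2.prec a (mem_filter.mpr ⟨ha, not_le.mp c⟩) b (mem_filter.mpr ⟨hb, not_le.mp d⟩) hab
  · obtain ⟨c1, c2⟩ := h2.last f hf
    exact ⟨(mem_filter.mp c1).1, by rw [if_neg (not_le.mpr (mem_filter.mp c1).2), c2]⟩

/-- The exchange argument. -/
theorem Sch.exch (h : Sch O m S F s t σ) {x : ℕ} (hx : x ∈ S) (hF : x ∉ F)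
    (hs : ∀ y ∈ S, ¬O.r x y) (hmax : ∀ σ', Sch O m S F s t σ' → σ' x ≤ σ x) (y : ℕ) :
    y ∈ S → y ∉ F → σ x < σ y → ∃ a ∈ S, a ≠ x ∧ σ a = σ x ∧ O.r a y := by
  induction hk : σ y using Nat.strong_induction_on generalizing y with
  | _ k ih =>
  subst hk
  intro hy hyF hlt
  by_cases c : ∃ z ∈ S, O.r z y ∧ σ x ≤ σ z
  · obtain ⟨z, hz, hzy, c⟩ := c
    rcases c.eq_or_lt with c | c
    · exact ⟨z, hz, fun e => hs y hy (e ▸ hzy), c.symm, hzy⟩
    · have b := h.prec z hz y hy hzy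
      obtain ⟨a, ha, a1, a2, a3⟩ := ih _ b z rfl hz (fun hf => by
        have := (h.last z hf).2; have := (h.rng y hy).2; omega) c
      exact ⟨a, ha, a1, a2, O.tr a3 hzy⟩
  exfalso
  push Not at c
  have mem : ∀ v, Equiv.swap x y v ∈ S ↔ v ∈ S := fun v => by
    rw [Equiv.swap_apply_def]; split_ifs with d1 d2 <;> simp [*]
  have := hmax (fun v => σ (Equiv.swap x y v)) ⟨fun v hv => h.rng _ ((mem v).mpr hv),
    fun i b1 b2 => by
      rw [← h.full i b1 b2]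
      exact card_equiv (Equiv.swap x y) fun v => by simp [mem],
    fun a ha b hb hab => by
      have b1 := h.prec a ha b hb hab
      have b2 : a ≠ x := fun e => hs b hb (e ▸ hab)
      rw [Equiv.swap_apply_def, Equiv.swap_apply_def, if_neg b2]
      by_cases d1 : a = y
      · rw [if_pos d1]
        rw [d1] at b1
        split_ifs with d2 d3
        · rw [d2] at b1; omega
        · rw [d3] at b1; omega
        · omega
      · rw [if_neg d1]
        split_ifs with d2 d3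
        · rw [d2] at b1; omega
        · exact c a ha (d3 ▸ hab)
        · exact b1,
    fun f hf => ⟨(h.last f hf).1, by
      rw [Equiv.swap_apply_of_ne_of_ne (show f ≠ x from fun e => hF (e ▸ hf))
        (show f ≠ y from fun e => hyF (e ▸ hf)), (h.last f hf).2]⟩⟩
  simp only [Equiv.swap_apply_left] at this
  omega

theorem Inv.small (h : Inv O m S F s t U P As) : Small O m F :=
  let ⟨_, hσ⟩ := h.feas
  ⟨fun f hf => h.sub (hσ.last f hf).1, hσ.card_le h.st le_rfl hσ.last⟩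

theorem Inv.desc (h : Inv O m S F s t U P As) : Desc O m S := by
  obtain ⟨σ, hσ⟩ := h.feas
  refine ⟨U, S.filter fun b => σ b = t, F, P, h.hU,
    ⟨(filter_subset _ _).trans h.sub, (hσ.full t h.st le_rfl).le⟩, h.small, h.hP, fun v =>
    ⟨fun hv => ?_, ?_⟩⟩
  · refine (em (v ∈ F)).imp_right fun hF => ⟨(h.cov v hv hF).1, (h.cov v hv hF).2, ?_⟩
    rintro ⟨b, hb, hr⟩
    have := hσ.prec b (mem_filter.mp hb).1 v hv hr
    have := (mem_filter.mp hb).2
    have := (hσ.rng v hv).2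
    omega
  · rintro (hv | ⟨h1, h2, h3⟩)
    · exact (hσ.last v hv).1
    · by_contra hv
      obtain ⟨b, b1, -, b2, b3⟩ := h.exc σ hσ v h1 h2 hv
      exact h3 ⟨b, mem_filter.mpr ⟨b1, b2⟩, b3⟩

theorem desc_small (h : Small O m F) : Desc O m F :=
  ⟨O.W, ∅, F, fun _ => ∅, Or.inl rfl, ⟨empty_subset _, Nat.zero_le _⟩, h, fun _ => IsLev.empty,
    fun v => by simp⟩

theorem Inv.merge (h : Inv O m S F s t U P As) (hF : F.card < m) :
    ∃ P' As', Inv O m S F s t U P' As' ∧ ∃ y ∈ S, y ∉ F ∧ ∀ i ∈ As', y ∉ P' i := by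
  by_cases c : ∃ y ∈ S, y ∉ F ∧ ∀ i ∈ As, y ∉ P i
  · exact ⟨P, As, h, c⟩
  push Not at c
  obtain ⟨σ, hσ⟩ := h.feas
  obtain ⟨y, hy, hyF⟩ := exists_mem_notMem_of_card_lt_card
    (hF.trans_eq (hσ.full t h.st le_rfl).symm)
  obtain ⟨hy, hyt⟩ := mem_filter.mp hy
  obtain ⟨j, -, hj⟩ := exists_mem_notMem_of_card_lt_card (s := As) (t := univ)
    (by simpa using h.card.trans_lt hF)
  have nF : ∀ v ∈ S, σ v = t → ∀ g ∈ F, ¬O.r v g := fun v hv e g hg hr => by
    have := hσ.prec v hv g (hσ.last g hg).1 hr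
    have := (hσ.last g hg).2
    omega
  set Q : Set ℕ := {v | (∃ g ∈ F, O.r v g) ∧ O.ix v < O.Θ} with hQ
  refine ⟨Function.update P j Q, {j}, ⟨h.st, h.sub, h.hU, fun i => ?_, ⟨σ, hσ⟩, fun v hv hvF => ?_,
    fun f hf i => ?_, fun σ' hσ' v hv hi hvS => h.exc σ' hσ' v hv ?_ hvS, h.down,
    fun f hf v hr => ⟨j, mem_singleton_self j, ?_⟩, ?_⟩, y, hy, hyF, fun i hi => ?_⟩
  · rcases eq_or_ne i j with rfl | e
    · rw [Function.update_self]; exact ⟨O.Θ, le_rfl, Or.inr ⟨F, h.small, rfl⟩⟩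
    · rw [Function.update_of_ne e]; exact h.hP i
  · obtain ⟨i, hi, e⟩ := c v hv hvF
    exact ⟨(h.cov v hv hvF).1, i, by
      rwa [Function.update_of_ne (show i ≠ j from fun d => hj (d ▸ hi))]⟩
  · rcases eq_or_ne i j with rfl | e
    · rw [Function.update_self]
      rintro ⟨⟨g, hg, hr⟩, -⟩
      exact nF f (hσ.last f hf).1 (hσ.last f hf).2 g hg hr
    · rw [Function.update_of_ne e]; exact h.FP f hf i
  · obtain ⟨i, hi⟩ := hi
    rcases eq_or_ne i j with rfl | e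
    · rw [Function.update_self] at hi
      obtain ⟨⟨g, hg, hr⟩, -⟩ := hi
      exact (hvS (h.down g (hσ.last g hg).1 v hv hr)).elim
    · rw [Function.update_of_ne e] at hi; exact ⟨i, hi⟩
  · rw [Function.update_self]; exact ⟨⟨f, hf, hr⟩, O.bd v (O.mem hr)⟩
  · obtain ⟨i, hi, -⟩ := c y hy hyF
    rw [card_singleton]
    exact (card_pos.mpr ⟨i, hi⟩).trans_le h.card
  · rw [mem_singleton.mp hi, Function.update_self]
    rintro ⟨⟨g, hg, hr⟩, -⟩
    exact nF y hy hyt g hg hr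

theorem Inv.pick (h : Inv O m S F s t U P As) (hy : ∃ y ∈ S, y ∉ F ∧ ∀ i ∈ As, y ∉ P i) :
    ∃ (P' : Fin m → Set ℕ) (j : Fin m) (x : ℕ), x ∈ S ∧ x ∉ F ∧ (∀ y ∈ S, ¬O.r x y) ∧
      (∀ i, IsLev O m (P' i)) ∧ (∀ i, P' i ⊆ P i) ∧ (∀ i ∈ As, P' i = P i) ∧
      (∀ v ∈ S, v ∉ F → v ≠ x → ∃ i, v ∈ P' i) ∧ (∀ i, x ∉ P' i) ∧ ∀ v, O.r v x → v ∈ P' j := by
  classical
  have ex : ∃ k, ∀ v ∈ S, v ∉ F → ∃ i, v ∈ P i ∧ (i ∈ As ∨ i.1 < k) :=
    ⟨m, fun v hv hF => let ⟨i, hi⟩ := (h.cov v hv hF).2; ⟨i, hi, Or.inr i.2⟩⟩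
  have k1 := Nat.find_spec ex
  have k0 : 0 < Nat.find ex := Nat.pos_of_ne_zero fun e => by
    obtain ⟨y, y1, y2, y3⟩ := hy
    obtain ⟨i, hi, c⟩ := k1 y y1 y2
    exact c.elim (fun c => y3 i c hi) (by omega)
  have k2 := Nat.find_min ex (Nat.sub_one_lt k0.ne')
  generalize Nat.find ex = k at k0 k1 k2
  push Not at k2
  set Z := S.filter fun v => v ∉ F ∧ ∀ i, v ∈ P i → i ∉ As ∧ k - 1 ≤ i.1 with hZ
  obtain ⟨x, hx, hmax⟩ := exists_max_image Z O.ix (by
    obtain ⟨v, v1, v2, v3⟩ := k2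
    exact ⟨v, mem_filter.mpr ⟨v1, v2, v3⟩⟩)
  obtain ⟨x1, x2, x3⟩ := mem_filter.mp hx
  obtain ⟨j, j1, j2⟩ := k1 x x1 x2
  have j3 := x3 j j1
  have j4 : j.1 = k - 1 := by have := j2.resolve_left j3.1; omega
  refine ⟨fun i => if i = j then P i ∩ {v | O.ix v < O.ix x} else
    if i ∈ As ∨ i.1 < k then P i else ∅, j, x, x1, x2, fun y y1 hr => ?_, fun i => ?_, fun i => ?_,
    fun i hi => ?_, fun v v1 v2 v3 => ?_, fun i => ?_, fun v hr => ?_⟩
  · have := hmax y (mem_filter.mpr ⟨y1, fun hF => ?_, fun i hi => x3 i ((h.hP i).down hr hi)⟩)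
    · exact absurd (O.lt hr) (not_lt.mpr this)
    · obtain ⟨i, i1, i2⟩ := h.asg y hF x hr
      exact (x3 i i2).1 i1
  · beta_reduce
    split_ifs
    · exact (h.hP i).trunc x
    · exact h.hP i
    · exact IsLev.empty
  · beta_reduce
    split_ifs
    · exact Set.inter_subset_left
    · exact Set.Subset.rfl
    · exact Set.empty_subset _
  · beta_reduce
    rw [if_neg (show ¬i = j from fun e => j3.1 (e ▸ hi)), if_pos (Or.inl hi)]
  · by_cases c : v ∈ Z
    · obtain ⟨i, i1, i2⟩ := k1 v v1 v2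
      have i3 := (mem_filter.mp c).2.2 i i1
      obtain rfl : i = j := Fin.ext (by have := i2.resolve_left i3.1; omega)
      refine ⟨i, ?_⟩
      beta_reduce
      rw [if_pos rfl]
      exact ⟨i1, lt_of_le_of_ne (hmax v c) fun e => v3 (O.inj v (h.sub v1) x (h.sub x1) e)⟩
    · simp only [hZ, mem_filter, v1, v2, true_and, not_false_eq_true, not_forall] at c
      obtain ⟨i, i1, i2⟩ := c
      refine ⟨i, ?_⟩
      beta_reduce
      rw [if_neg (show ¬i = j from fun e => i2 (by rw [e]; exact j3)), if_pos (by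
        by_cases d : i ∈ As
        · exact Or.inl d
        · exact Or.inr (by have := not_le.mp fun d' => i2 ⟨d, d'⟩; omega))]
      exact i1
  · beta_reduce
    split_ifs with c d
    · exact fun e => lt_irrefl _ (show O.ix x < O.ix x from e.2)
    · intro e
      have := x3 i e
      exact c (Fin.ext (by have := d.resolve_left this.1; omega))
    · exact Set.notMem_empty x
  · beta_reduce
    rw [if_pos rfl]; exact ⟨(h.hP j).down hr j1, O.lt hr⟩

theorem Inv.der (k : ℕ) : ∀ {S F : Finset ℕ} {s t : ℕ} {U : Set ℕ} {P : Fin m → Set ℕ}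
    {As : Finset (Fin m)}, Inv O m S F s t U P As → (t - s) * (m + 1) - F.card = k →
    Der O m S := by
  induction k using Nat.strong_induction_on with
  | _ k ih =>
  intro S F s t U P As h hk
  have hst := h.st
  have hFm := h.small.2
  have lt : ∀ {a b : ℕ}, a < t - s → a * (m + 1) - b < k := fun {a b} ha => by
    have := Nat.mul_le_mul_right (m + 1) (Nat.succ_le_of_lt ha)
    rw [Nat.succ_mul] at this
    omega
  rcases hFm.eq_or_lt with hF | hF
  · obtain ⟨σ, hσ⟩ := h.feas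
    have eF : F = S.filter fun v => σ v = t := eq_of_subset_of_card_le
      (fun f hf => mem_filter.mpr (hσ.last f hf)) (by rw [hσ.full t hst le_rfl, hF])
    have mF : ∀ v ∈ S, v ∈ F ↔ σ v = t := fun v hv => by rw [eF]; simp [hv]
    have dF : Der O m F := .slot (desc_small h.small) hF fun u hu v hv hr => by
      have := hσ.prec u (hσ.last u hu).1 v (hσ.last v hv).1 hr
      have := (hσ.last u hu).2
      have := (hσ.last v hv).2
      omega
    by_cases c : t = s + 1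
    · have : S = F := Subset.antisymm (fun v hv => (mF v hv).mpr (by
        have := hσ.rng v hv; omega)) fun f hf => (hσ.last f hf).1
      exact this ▸ dF
    have i1 : Inv O m (S.filter fun v => σ v ≤ t - 1) ∅ s (t - 1) U P ∅ :=
      ⟨by omega, (filter_subset _ _).trans h.sub, h.hU, h.hP,
        ⟨σ, hσ.left (by omega) (by simp)⟩, fun v hv _ => h.cov v (mem_filter.mp hv).1 fun hf => by
          have := (mem_filter.mp hv).2
          have := (hσ.last v hf).2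
          omega,
        by simp, fun σ' _ v hv hi hvS => by
          by_cases d : v ∈ S
          · obtain ⟨i, hi⟩ := hi
            refine (h.FP v ((mF v d).mpr ?_) i hi).elim
            have := not_le.mp fun e => hvS (mem_filter.mpr ⟨d, e⟩)
            have := (hσ.rng v d).2
            omega
          · obtain ⟨b, b1, b2, b3, -⟩ := h.exc σ hσ v hv hi d
            exact (b2 ((mF b b1).mpr b3)).elim,
        fun y hy z hz hr => by
          obtain ⟨y1, y2⟩ := mem_filter.mp hy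
          have z1 := h.down y y1 z hz hr
          exact mem_filter.mpr ⟨z1, (hσ.prec z z1 y y1 hr).le.trans y2⟩,
        by simp, by simp⟩
    refine .cat h.desc (ih _ (lt (by omega)) i1 rfl) dF ?_ ?_ fun u hu v hv hr => ?_
    · ext v
      simp only [mem_union, mem_filter]
      refine ⟨fun hv => ?_, fun hv => hv.elim And.left fun hf => (hσ.last v hf).1⟩
      have := (hσ.rng v hv).2
      rw [mF v hv]; simp only [hv, true_and]; omega
    · refine disjoint_left.mpr fun v hv hf => ?_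
      have := (mem_filter.mp hv).2
      have := (hσ.last v hf).2
      omega
    · have := hσ.prec u (hσ.last u hu).1 v (mem_filter.mp hv).1 hr
      have := (mem_filter.mp hv).2
      have := (hσ.last u hu).2
      omega
  obtain ⟨P, As, h, hy⟩ := h.merge hF
  obtain ⟨P', j, x, x1, x2, x3, p1, p2, p3, p4, p5, p6⟩ := h.pick hy
  obtain ⟨σ, hσ, hmax⟩ : ∃ σ, Sch O m S F s t σ ∧ ∀ σ', Sch O m S F s t σ' → σ' x ≤ σ x := by
    classical
    obtain ⟨σ0, h0⟩ := h.feas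
    obtain ⟨σ, hσ, e⟩ := Nat.findGreatest_spec (P := fun u => ∃ σ, Sch O m S F s t σ ∧ σ x = u)
      (h0.rng x x1).2 ⟨σ0, h0, rfl⟩
    exact ⟨σ, hσ, fun σ' h' => e ▸ Nat.le_findGreatest (h'.rng x x1).2 ⟨σ', h', rfl⟩⟩
  have up : ∀ v, (∃ i, v ∈ P' i) → ∃ i, v ∈ P i := fun v ⟨i, hi⟩ => ⟨i, p2 i hi⟩
  obtain ⟨xs, xt⟩ := hσ.rng x x1
  rcases xt.eq_or_lt with xt | xt
  · have wk : ∀ σ', Sch O m S (insert x F) s t σ' → Sch O m S F s t σ' := fun σ' h' =>
      ⟨h'.rng, h'.full, h'.prec, fun f hf => h'.last f (mem_insert_of_mem hf)⟩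
    refine ih _ ?_ (F := insert x F) (P := P') (As := insert j As) ⟨hst, h.sub, h.hU, p1,
      ⟨σ, hσ.rng, hσ.full, hσ.prec, forall_mem_insert _ _ _ |>.mpr ⟨⟨x1, xt⟩, hσ.last⟩⟩,
      fun v hv hF => ?_, forall_mem_insert _ _ _ |>.mpr ⟨p5, fun f hf i e => h.FP f hf i (p2 i e)⟩,
      fun σ' h' v hv hi hvS => ?_, h.down, forall_mem_insert _ _ _ |>.mpr
        ⟨fun v hr => ⟨j, mem_insert_self _ _, p6 v hr⟩, fun f hf v hr => ?_⟩, ?_⟩ rfl
    · rw [card_insert_of_notMem x2]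
      have := Nat.mul_le_mul_right (m + 1) (show 1 ≤ t - s by omega)
      omega
    · rw [mem_insert, not_or] at hF
      exact ⟨(h.cov v hv hF.2).1, p4 v hv hF.2 hF.1⟩
    · obtain ⟨b, b1, b2, b3, b4⟩ := h.exc σ' (wk σ' h') v hv (up v hi) hvS
      refine ⟨b, b1, fun e => (mem_insert.mp e).elim (fun e => ?_) b2, b3, b4⟩
      obtain ⟨i, hi⟩ := hi
      exact p5 i ((p1 i).down (e ▸ b4) hi)
    · obtain ⟨i, i1, i2⟩ := h.asg f hf v hr
      exact ⟨i, mem_insert_of_mem i1, p3 i i1 ▸ i2⟩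
    · rw [card_insert_of_notMem x2]
      exact (card_insert_le _ _).trans (Nat.succ_le_succ h.card)
  have sL := hσ.left xt.le (F' := {x}) (by simp [x1])
  have sR := hσ.right xs.le xt
  have nF : ∀ v ∈ S, σ v ≤ σ x → v ∉ F := fun v _ e hf => by
    have := (hσ.last v hf).2; omega
  have iL : Inv O m (S.filter fun v => σ v ≤ σ x) {x} s (σ x) U P' {j} := by
    refine ⟨xs, (filter_subset _ _).trans h.sub, h.hU, p1, ⟨σ, sL⟩, fun v hv hF => ?_,
      by simpa using p5, fun σ' h' v hv hi hvS => ?_, fun y hy z hz hr => ?_,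
      by simpa using p6, by simp⟩
    · obtain ⟨v1, v2⟩ := mem_filter.mp hv
      exact ⟨(h.cov v v1 (nF v v1 v2)).1, p4 v v1 (nF v v1 v2) (by simpa using hF)⟩
    · have g := hσ.glue xt.le xs.le h' sR
      have gx : (if σ x ≤ σ x then σ' x else σ x) = σ x := by
        rw [if_pos le_rfl, (h'.last x (mem_singleton_self x)).2]
      have key : ∀ y ∈ S, y ∉ F → σ x < σ y → ∃ b ∈ S.filter fun v => σ v ≤ σ x,
          b ∉ ({x} : Finset ℕ) ∧ σ' b = σ x ∧ O.r b y := fun y y1 y2 y3 => by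
        obtain ⟨a, a1, a2, a3, a4⟩ := g.exch x1 x2 x3 (fun σ'' h'' => gx.symm ▸ hmax σ'' h'') y y1
          y2 (by rw [gx, if_neg (not_le.mpr y3)]; exact y3)
        rw [gx] at a3
        split_ifs at a3 with d
        · exact ⟨a, mem_filter.mpr ⟨a1, d⟩, by simpa using a2, a3, a4⟩
        · omega
      by_cases d : v ∈ S
      · obtain ⟨i, hi⟩ := hi
        exact key v d (fun hf => h.FP v hf i (p2 i hi))
          (not_le.mp fun e => hvS (mem_filter.mpr ⟨d, e⟩))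
      · obtain ⟨b, b1, b2, b3, b4⟩ := h.exc _ g v hv (up v hi) d
        have b5 : σ x < σ b := by
          by_contra e
          rw [if_pos (not_lt.mp e)] at b3
          have := (h'.rng b (mem_filter.mpr ⟨b1, not_lt.mp e⟩)).2
          omega
        obtain ⟨a, a1, a2, a3, a4⟩ := key b b1 b2 b5
        exact ⟨a, a1, a2, a3, O.tr a4 b4⟩
    · obtain ⟨y1, y2⟩ := mem_filter.mp hy
      have z1 := h.down y y1 z hz hr
      exact mem_filter.mpr ⟨z1, (hσ.prec z z1 y y1 hr).le.trans y2⟩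
  have inU : ∀ v ∈ O.W, (∃ a ∈ S.filter fun a => σ a = σ x, O.r a v) → v ∈ U :=
    fun v hv ⟨a, ha, hr⟩ => h.hU.up hr (h.cov a (mem_filter.mp ha).1
      (nF a (mem_filter.mp ha).1 (mem_filter.mp ha).2.le)).1 hv
  have gt : ∀ v ∈ S, (∃ a ∈ S.filter fun a => σ a = σ x, O.r a v) → σ x < σ v :=
    fun v hv ⟨a, ha, hr⟩ => (mem_filter.mp ha).2 ▸ hσ.prec a (mem_filter.mp ha).1 v hv hr
  have iR : Inv O m (S.filter fun v => σ x < σ v) F (σ x) t
      {v | v ∈ O.W ∧ ∃ a ∈ S.filter fun a => σ a = σ x, O.r a v} P As := by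
    refine ⟨xt, (filter_subset _ _).trans h.sub, Or.inr ⟨_, ⟨(filter_subset _ _).trans h.sub,
      (hσ.full _ xs xt.le).le⟩, rfl⟩, h.hP, ⟨σ, sR⟩, fun v hv hF => ?_, h.FP,
      fun σ' h' v hv hi hvS => ?_, fun y hy z hz hr => ?_, h.asg, h.card⟩
    · obtain ⟨v1, v2⟩ := mem_filter.mp hv
      obtain ⟨a, a1, -, a3, a4⟩ := hσ.exch x1 x2 x3 hmax v v1 hF v2
      exact ⟨⟨h.sub v1, a, mem_filter.mpr ⟨a1, a3⟩, a4⟩, (h.cov v v1 hF).2⟩
    · obtain ⟨b, b1, b2, b3, b4⟩ := h.exc _ (hσ.glue xt.le xs.le sL h') v (inU v hv.1 hv.2) hi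
        fun d => hvS (mem_filter.mpr ⟨d, gt v d hv.2⟩)
      split_ifs at b3 with d
      · omega
      · exact ⟨b, mem_filter.mpr ⟨b1, not_le.mp d⟩, b2, b3, b4⟩
    · have z1 := h.down y (mem_filter.mp hy).1 z (inU z hz.1 hz.2) hr
      exact mem_filter.mpr ⟨z1, gt z z1 hz.2⟩
  refine .cat h.desc (ih _ (lt (by omega)) iL rfl) (ih _ (lt (by omega)) iR rfl) ?_ ?_
    fun u hu v hv hr => ?_
  · ext v
    simp only [mem_union, mem_filter]
    constructor
    · intro hv; simp only [hv, true_and]; omega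
    · exact fun hv => hv.elim And.left And.left
  · refine disjoint_left.mpr fun v h1 h2 => ?_
    have := (mem_filter.mp h1).2
    have := (mem_filter.mp h2).2
    omega
  · have := hσ.prec u (mem_filter.mp hu).1 v (mem_filter.mp hv).1 hr
    have := (mem_filter.mp hu).2
    have := (mem_filter.mp hv).2
    omega

theorem der_of_sch (hm : 0 < m) (ht : 0 < t) (h : Sch O m O.W ∅ 0 t σ) : Der O m O.W :=
  Inv.der _ (F := ∅) (U := O.W) (P := fun _ => {v | O.ix v < O.Θ}) (As := ∅)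
    ⟨ht, Subset.rfl, Or.inl rfl, fun _ => ⟨O.Θ, le_rfl, Or.inl rfl⟩, ⟨σ, h⟩,
      fun v hv _ => ⟨hv, ⟨0, hm⟩, O.bd v hv⟩, by simp, fun _ _ _ hv _ hvS => (hvS hv).elim,
      fun _ _ _ hz _ => hz, by simp, by simp⟩ rfl

end Vale.Agent.P324
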