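import Mathlib
import Vale.Agent.Lib.PTime.Defs

/-! Scheduling unit jobs with precedence constraints on `m` machines. -/

namespace Vale.Agent.P324

/-- A directed graph on the jobs `0, ..., n - 1`; `adj u v = true` means that `(u, v)` is an arc. -/
structure Graph where
  n : ℕ
  adj : Fin n → Fin n → Bool

/-- A graph is encoded by the rows of its adjacency matrix. -/
instance : Vale.Agent.PT.TEnc Graph :=
  ⟨fun G => Vale.Agent.PT.TEnc.enc (List.ofFn fun u => List.ofFn fun v => G.adj u v)⟩

/-- `τ` is a schedule of length `T` on `m` machines. -/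
def IsSchedule (m : ℕ) (G : Graph) (T : ℕ) (τ : Fin G.n → ℕ) : Prop :=
  (∀ v, 1 ≤ τ v ∧ τ v ≤ T) ∧ (∀ t, (Finset.univ.filter fun v => τ v = t).card ≤ m) ∧
    ∀ u v, G.adj u v = true → τ u < τ v

end Vale.Agent.P324
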