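import Vale.Agent.P324.Algo
import Vale.Agent.P324.Defs

/-! Reduction of the scheduling problem to the dynamic program. -/

namespace Vale.Agent.P324

open Vale.Agent.PT Finset

def arc (A : List (List Bool)) (u v : ℕ) : Bool := (A.getD u []).getD v false

def cstep (A : List (List Bool)) (W : List ℕ) (E : List (ℕ × ℕ)) : List (ℕ × ℕ) :=
  (W.product W).filter fun p =>
    arc A p.1 p.2 || W.any fun w => decide ((p.1, w) ∈ E) && arc A w p.2

/-- transitive closure -/
def clo (A : List (List Bool)) (W : List ℕ) (k : ℕ) : List (ℕ × ℕ) := (cstep A W)^[k] []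

def solve (m : ℕ) (A : List (List Bool)) (T : ℕ) : Option (List ℕ) :=
  if A.length ≤ m * (A.take T).length then
    (dp m (List.range (m * (A.take T).length))
      (clo A (List.range (m * (A.take T).length)) (A.take T).length)).map
      fun w => (List.range A.length).map fun v => (w.findIdx fun x => x == v) / m + 1
  else none

def best (m : ℕ) (A : List (List Bool)) : List ℕ :=
  (((List.range (A.length + 1)).find? fun T => (solve m A T).isSome).bind (solve m A)).getD []

def check (l : List ℕ) (n : List ℕ) (T : ℕ) : Bool :=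
  n.all fun v => decide (1 ≤ l.getD v 0) && decide (l.getD v 0 ≤ T)

def rows (G : Graph) : List (List Bool) := List.ofFn fun u => List.ofFn fun v => G.adj u v

section poly

variable {α : Type} [TEnc α] {A : α → List (List Bool)} {W : α → List ℕ} {u v : α → ℕ}

@[fun_prop] theorem ptime_arc (hA : PTime A) (hu : PTime u) (hv : PTime v) :
    PTime fun a => arc (A a) (u a) (v a) := by unfold arc; fun_prop

theorem clo_succ (A : List (List Bool)) (W : List ℕ) (k : ℕ) :
    clo A W (k + 1) = cstep A W (clo A W k) := Function.iterate_succ_apply' _ _ _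

theorem clo_sub (A : List (List Bool)) (W : List ℕ) : ∀ k, (clo A W k).Sublist (W.product W)
  | 0 => List.nil_sublist _
  | k + 1 => by rw [clo_succ]; exact List.filter_sublist

theorem ptime_clo {β : Type} [TEnc β] {B : α → List β} (hA : PTime A) (hW : PTime W)
    (hB : PTime B) : PTime fun a => clo (A a) (W a) (B a).length :=
  PTime.iterate_len (f := fun a => cstep (A a) (W a)) hB (.const []) (by unfold cstep; fun_prop) _
    (hW.product hW).sz_PB fun _ k _ => sz_sublist (clo_sub _ _ k)

@[fun_prop] theorem ptime_solve (m : ℕ) (hA : PTime A) (hu : PTime u) :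
    PTime fun a => solve m (A a) (u a) := by
  have h1 : PTime fun a => List.range (m * ((A a).take (u a)).length) := by fun_prop
  have h2 := ptime_dp m h1 (ptime_clo hA h1 (hu.take hA)) fun _ => List.nodup_range
  unfold solve
  fun_prop

theorem ptime_best (m : ℕ) (hA : PTime A) : PTime fun a => best m (A a) := by
  unfold best; fun_prop

theorem ptime_check {l : α → List ℕ} (hl : PTime l) (hW : PTime W) (hu : PTime u) :
    PTime fun a => check (l a) (W a) (u a) := by unfold check; fun_prop

theorem ptime_rows : PTime rows := PTime.of_enc_eq fun _ => rfl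

end poly

variable {m T : ℕ} {G : Graph} {τ : Fin G.n → ℕ}

@[simp] theorem length_rows : (rows G).length = G.n := by simp [rows]

theorem arc_iff {u v : ℕ} : arc (rows G) u v = true ↔
    ∃ (hu : u < G.n) (hv : v < G.n), G.adj ⟨u, hu⟩ ⟨v, hv⟩ = true := by
  unfold arc rows
  by_cases hu : u < G.n
  · by_cases hv : v < G.n
    · simp [hu, hv]
    · simp [hu, hv]
  · simp [hu]

theorem mem_clo {A : List (List Bool)} {W : List ℕ} {k u v : ℕ} : (u, v) ∈ clo A W (k + 1) ↔
    (u ∈ W ∧ v ∈ W) ∧ (arc A u v = true ∨ ∃ w ∈ W, (u, w) ∈ clo A W k ∧ arc A w v = true) := by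
  rw [clo_succ, cstep, List.mem_filter, List.pair_mem_product]
  simp

theorem clo_trans {A : List (List Bool)} {W : List ℕ} : ∀ {k u v : ℕ}, (u, v) ∈ clo A W k →
    Relation.TransGen (fun a b => arc A a b = true) u v
  | 0, _, _, h => by simp [clo] at h
  | _ + 1, _, _, h => by
    rcases (mem_clo.mp h).2 with h | ⟨w, -, h1, h2⟩
    · exact .single h
    · exact (clo_trans h1).tail h2

theorem trans_lt {R : ℕ → ℕ → Prop} {σ : ℕ → ℕ} (h : ∀ a b, R a b → σ a < σ b) {u v : ℕ}
    (huv : Relation.TransGen R u v) : σ u < σ v := by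
  induction huv with
  | single h1 => exact h _ _ h1
  | tail _ h1 ih => exact ih.trans (h _ _ h1)

theorem trans_clo {A : List (List Bool)} {W : List ℕ} {σ : ℕ → ℕ}
    (h : ∀ a b, arc A a b = true → σ a < σ b) (hW : ∀ a b, arc A a b = true → a ∈ W ∧ b ∈ W) :
    ∀ {k u v : ℕ}, Relation.TransGen (fun a b => arc A a b = true) u v → σ v ≤ σ u + k →
      (u, v) ∈ clo A W k
  | 0, _, _, h1, h2 => absurd (trans_lt h h1) (not_lt.mpr h2)
  | k + 1, _, _, h1, h2 => by
    cases h1 with
    | single h1 => exact mem_clo.mpr ⟨hW _ _ h1, Or.inl h1⟩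
    | tail h1 h3 =>
      have h4 := trans_clo h hW (k := k) h1 (by have := h _ _ h3; omega)
      exact mem_clo.mpr ⟨⟨(List.pair_mem_product.mp ((clo_sub _ _ k).subset h4)).1, (hW _ _ h3).2⟩,
        Or.inr ⟨_, (hW _ _ h3).1, h4, h3⟩⟩

theorem count {k : ℕ} {σ : ℕ → ℕ} (h : ∀ v < k, 0 < σ v ∧ σ v ≤ T) :
    ∑ i ∈ Icc 1 T, ((range k).filter fun v => σ v = i).card = k := by
  rw [← card_eq_sum_card_fiberwise fun v hv => mem_Icc.mpr (h v (mem_range.mp hv)), card_range]

theorem IsSchedule.pad (h : IsSchedule m G T τ) (k : ℕ) (hk : G.n ≤ k) : (k ≤ m * T ∨ k = G.n) →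
    ∃ σ : ℕ → ℕ, (∀ v : Fin G.n, σ v = τ v) ∧ (∀ v < k, 0 < σ v ∧ σ v ≤ T) ∧
      ∀ i, ((range k).filter fun v => σ v = i).card ≤ m := by
  induction k, hk using Nat.le_induction with
  | base =>
    refine fun _ => ⟨fun v => if hv : v < G.n then τ ⟨v, hv⟩ else 0, fun v => by simp,
      fun v hv => by beta_reduce; rw [dif_pos hv]; exact h.1 _, fun i => le_trans ?_ (h.2.1 i)⟩
    rw [← card_map Fin.valEmbedding]
    refine card_le_card fun v hv => ?_
    obtain ⟨h1, h2⟩ := mem_filter.mp hv
    beta_reduce at h2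
    rw [dif_pos (mem_range.mp h1)] at h2
    exact mem_map.mpr ⟨⟨v, mem_range.mp h1⟩, by simpa using h2, rfl⟩
  | succ k hk ih =>
    intro c
    obtain ⟨σ, h1, h2, h3⟩ := ih (by omega)
    obtain ⟨i, hi, h4⟩ := exists_lt_of_sum_lt (s := Icc 1 T)
      (f := fun i => ((range k).filter fun v => σ v = i).card) (g := fun _ => m)
      (by rw [count h2]; simp [mul_comm]; omega)
    have e : ∀ v < k, Function.update σ k i v = σ v := fun v hv => Function.update_of_ne hv.ne _ _
    refine ⟨Function.update σ k i, fun v => (e v (v.2.trans_le hk)).trans (h1 v), fun v hv => ?_,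
      fun j => ?_⟩
    · rcases (Nat.lt_succ_iff.mp hv).eq_or_lt with rfl | hv
      · rw [Function.update_self]; exact mem_Icc.mp hi
      · rw [e v hv]; exact h2 v hv
    · rw [range_add_one, filter_insert, Function.update_self,
        filter_congr fun v hv => by rw [e v (mem_range.mp hv)]]
      split_ifs with d
      · exact (card_insert_le _ _).trans (d ▸ h4)
      · exact h3 j

theorem IsSchedule.le (h : IsSchedule m G T τ) : G.n ≤ m * T := by
  obtain ⟨σ, -, h2, h3⟩ := h.pad G.n le_rfl (Or.inr rfl)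
  rw [← count h2]
  simpa [mul_comm] using sum_le_card_nsmul (Icc 1 T) _ m fun i _ => h3 i

theorem IsSchedule.compress (h : IsSchedule m G T τ) : ∃ τ', IsSchedule m G (min T G.n) τ' := by
  have mono : ∀ u v, τ u < τ v → ((univ.image τ).filter (· ≤ τ u)).card <
      ((univ.image τ).filter (· ≤ τ v)).card := fun u v huv =>
    card_lt_card ⟨monotone_filter_right _ fun x _ hx => hx.trans huv.le, fun e => by
      have := (mem_filter.mp (e (mem_filter.mpr ⟨mem_image_of_mem τ (mem_univ v), le_rfl⟩))).2
      omega⟩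
  refine ⟨fun v => ((univ.image τ).filter (· ≤ τ v)).card, fun v => ⟨card_pos.mpr
    ⟨τ v, mem_filter.mpr ⟨mem_image_of_mem τ (mem_univ v), le_rfl⟩⟩,
    (card_filter_le _ _).trans (le_min ?_ (card_image_le.trans (by simp)))⟩, fun t => ?_,
    fun u v e => mono u v (h.2.2 u v e)⟩
  · simpa using card_le_card (show univ.image τ ⊆ Icc 1 T from fun x hx => by
      obtain ⟨u, -, rfl⟩ := mem_image.mp hx
      exact mem_Icc.mpr (h.1 u))
  · rcases eq_empty_or_nonempty (univ.filter fun v =>
      ((univ.image τ).filter (· ≤ τ v)).card = t) with e | ⟨u, hu⟩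
    · rw [e]; exact Nat.zero_le _
    · refine le_trans (card_le_card fun v hv => mem_filter.mpr ⟨mem_univ _, ?_⟩) (h.2.1 (τ u))
      have h1 := (mem_filter.mp hu).2
      have h2 := (mem_filter.mp hv).2
      beta_reduce at h2
      rcases lt_trichotomy (τ u) (τ v) with c | c | c
      · have := mono u v c; omega
      · exact c.symm
      · have := mono v u c; omega

theorem solve_complete (h : IsSchedule m G T τ) (hT : T ≤ G.n) (hn : 0 < G.n) :
    (solve m (rows G) T).isSome = true := by
  have e : ((rows G).take T).length = T := by simp [hT]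
  have hl := h.le
  obtain ⟨σ, h1, h2, h3⟩ := h.pad _ hl (Or.inl le_rfl)
  have a1 : ∀ a b, arc (rows G) a b = true → σ a < σ b := fun a b hab => by
    obtain ⟨ha, hb, hab⟩ := arc_iff.mp hab
    exact (h1 ⟨a, ha⟩).trans_lt ((h.2.2 _ _ hab).trans_eq (h1 ⟨b, hb⟩).symm)
  have a2 : ∀ a b, arc (rows G) a b = true →
      a ∈ List.range (m * T) ∧ b ∈ List.range (m * T) := fun a b hab => by
    obtain ⟨ha, hb, -⟩ := arc_iff.mp hab
    simp only [List.mem_range]; omega
  have a3 : ∀ {a b}, (a, b) ∈ clo (rows G) (List.range (m * T)) T → a < m * T ∧ b < m * T :=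
    fun hab => by simpa using List.pair_mem_product.mp ((clo_sub _ _ _).subset hab)
  rw [solve, e, if_pos (by simpa using hl), Option.isSome_map]
  refine dp_complete (fun h1 h3 => trans_clo a1 a2 ((clo_trans h1).trans (clo_trans h3))
    ((h2 _ (a3 h3).2).2.trans (Nat.le_add_left _ _))) (fun h => (a3 h).1)
    (Nat.pos_of_mul_pos_right (hn.trans_le hl)) (Nat.pos_of_mul_pos_left (hn.trans_le hl)) h2
    (fun i i1 i2 => ?_) fun u v h => trans_lt a1 (clo_trans h)
  exact (sum_eq_sum_iff_of_le (s := Icc 1 T) (g := fun _ => m) fun i _ => h3 i).mp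
    (by rw [count h2]; simp [mul_comm]) i (mem_Icc.mpr ⟨i1, i2⟩)

theorem solve_sound {l : List ℕ} (h : solve m (rows G) T = some l) :
    IsSchedule m G T fun v => l.getD v 0 := by
  unfold solve at h
  have e : ((rows G).take T).length ≤ T := by simp
  generalize ((rows G).take T).length = T' at h e
  split_ifs at h with c
  obtain ⟨w, hw, rfl⟩ := Option.map_eq_some_iff.mp h
  obtain ⟨⟨-, g⟩, p⟩ := dp_sound List.nodup_range hw
  rw [length_rows] at c ⊢
  have ev : ∀ v : Fin G.n, ((List.range G.n).map fun v =>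
      (w.findIdx fun x => x == v) / m + 1).getD v 0 = w.idxOf v.1 / m + 1 := fun v => by
    simp [List.idxOf]
  have mw : ∀ v : Fin G.n, v.1 ∈ w := fun v => p.mem_iff.mpr (List.mem_range.mpr (v.2.trans_le c))
  simp only [ev]
  refine ⟨fun v => ⟨Nat.le_add_left _ _, ?_⟩, fun t => ?_, fun u v huv => ?_⟩
  · have := List.idxOf_lt_length_of_mem (mw v)
    rw [p.length_eq, List.length_range] at this
    exact (Nat.div_lt_of_lt_mul this).trans_le e
  · refine (card_le_card_of_injOn (t := range m) (fun v => w.idxOf v.1 % m)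
      (fun v _ => mem_range.mpr (Nat.mod_lt _ (Nat.pos_of_mul_pos_right
        ((Nat.zero_le _).trans_lt (v.2.trans_le c))))) fun u hu v hv huv => ?_).trans_eq
      (card_range m)
    have h1 := (mem_filter.mp hu).2
    have h2 := (mem_filter.mp hv).2
    beta_reduce at h1 h2
    refine Fin.ext ((List.idxOf_inj (mw u)).mp ?_)
    rw [← Nat.div_add_mod (w.idxOf u.1) m, ← Nat.div_add_mod (w.idxOf v.1) m]
    exact congrArg₂ _ (congrArg _ (by omega)) huv
  · obtain ⟨k, rfl⟩ := Nat.exists_eq_add_one_of_ne_zero (n := T') fun d => by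
      have := u.2; rw [d] at c; omega
    refine Nat.succ_lt_succ (g u (mw u) v (mw v) (mem_clo.mpr ⟨⟨p.mem_iff.mp (mw u),
      p.mem_iff.mp (mw v)⟩, Or.inl (arc_iff.mpr ⟨u.2, v.2, huv⟩)⟩))

theorem empty_sched (hn : G.n = 0) (τ : Fin G.n → ℕ) : IsSchedule m G T τ :=
  have e : ∀ v : Fin G.n, False := fun v => by have := v.2; omega
  ⟨fun v => (e v).elim, fun _ => (card_le_univ _).trans (by simp [hn]), fun v => (e v).elim⟩

theorem best_opt (h : ∃ τ, IsSchedule m G T τ) :
    IsSchedule m G T fun v => (best m (rows G)).getD v 0 := by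
  rcases Nat.eq_zero_or_pos G.n with hn | hn
  · exact empty_sched hn _
  obtain ⟨τ, h⟩ := h
  obtain ⟨τ', h'⟩ := h.compress
  have h1 := solve_complete h' (min_le_right _ _) hn
  obtain ⟨T0, h2⟩ := Option.isSome_iff_exists.mp (List.find?_isSome.mpr
    ⟨min T G.n, List.mem_range.mpr (Nat.lt_succ_of_le (min_le_right _ _)), h1⟩ :
    ((List.range (G.n + 1)).find? fun T => (solve m (rows G) T).isSome).isSome = true)
  obtain ⟨h3, -, h4⟩ := List.find?_range_eq_some.mp h2
  obtain ⟨l, hl⟩ := Option.isSome_iff_exists.mp h3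
  have h5 : T0 ≤ min T G.n := not_lt.mp fun c => by simpa [h1] using h4 _ c
  have h6 := solve_sound hl
  rw [best, length_rows, h2, Option.bind_some, hl, Option.getD_some]
  exact ⟨fun v => ⟨(h6.1 v).1, (h6.1 v).2.trans (h5.trans (min_le_left _ _))⟩, h6.2⟩

theorem check_iff : check (best m (rows G)) (List.range (rows G).length) T = true ↔
    ∃ τ, IsSchedule m G T τ := by
  simp only [check, List.all_eq_true, List.mem_range, length_rows, Bool.and_eq_true,
    decide_eq_true_eq]
  refine ⟨fun h => ?_, fun h v hv => (best_opt h).1 ⟨v, hv⟩⟩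
  rcases Nat.eq_zero_or_pos G.n with hn | hn
  · exact ⟨fun _ => 0, empty_sched hn _⟩
  unfold best at h
  cases e : ((List.range ((rows G).length + 1)).find? fun T =>
      (solve m (rows G) T).isSome).bind (solve m (rows G)) with
  | none => rw [e] at h; simpa using (h 0 hn).1
  | some l =>
    obtain ⟨T0, -, hl⟩ := Option.bind_eq_some_iff.mp e
    rw [e, Option.getD_some] at h
    exact ⟨_, fun v => h v v.2, (solve_sound hl).2⟩

theorem main (m : ℕ) :
    (∃ f : Graph × ℕ → Bool, PolyTimeTM f ∧
      ∀ G T, f (G, T) = true ↔ ∃ τ, IsSchedule m G T τ) ∧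
    ∃ g : Graph → List ℕ, PolyTimeTM g ∧
      ∀ G T, (∃ τ, IsSchedule m G T τ) → IsSchedule m G T fun v => (g G).getD v 0 := by
  have h1 : PTime fun p : Graph × ℕ => rows p.1 := ptime_rows.comp (f := Prod.fst) (by fun_prop)
  have h2 := ptime_best m h1
  exact ⟨⟨fun p => check (best m (rows p.1)) (List.range (rows p.1).length) p.2,
    (ptime_check h2 (h1.length.range (PB.length h1)) (by fun_prop)).toTM, fun _ _ => check_iff⟩,
    _, (ptime_best m ptime_rows).toTM, fun _ _ => best_opt⟩

end Vale.Agent.P324
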